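import Vale.Agent.P129B.Nat0
import Vale.Agent.P129Z.Stmt

/-!
# Sets and functions of the statement, in an arbitrary model
-/

namespace Vale.Agent.P129BP

open Vale.Agent.P323.Z Vale.Agent.P129B Vale.Agent.P129Z Vale.Agent.P129Z.S

universe v

variable {N : Type v} [ZM N] {α β γ : Type*} [Coded N α] [Coded N β] [Coded N γ]

theorem opair_eq (x y : N) : opair ZM.E x y = op x y := by
  have h : ∃! p, IsOPair ZM.E p x y := ⟨op x y, isOPair_iff.2 rfl, fun p hp => isOPair_iff.1 hp⟩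
  rw [opair, dif_pos h]
  exact isOPair_iff.1 h.choose_spec.1

theorem ap_eq {f X Y x y : N} (hf : IsFunction ZM.E f X Y) (hx : x ∈ X) (h : op x y ∈ f) :
    ap ZM.E f x = y := by
  have h1 := hf.value x hx
  rw [ap, dif_pos h1]
  exact h1.unique h1.choose_spec.1 (pairMem_iff.2 h)

theorem op_ap_mem {f X Y x : N} (hf : IsFunction ZM.E f X Y) (hx : x ∈ X) :
    op x (ap ZM.E f x) ∈ f := by
  obtain ⟨y, hy, -⟩ := hf.value x hx
  rw [ap_eq hf hx (pairMem_iff.1 hy)]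
  exact pairMem_iff.1 hy

theorem ap_mem {f X Y x : N} (hf : IsFunction ZM.E f X Y) (hx : x ∈ X) : ap ZM.E f x ∈ Y := by
  obtain ⟨a, b, -, hb, h⟩ := hf.pairs _ (op_ap_mem hf hx)
  rw [(op_inj.1 (isOPair_iff.1 h)).2]
  exact hb

theorem isProd_iff {P A B : N} :
    IsProd ZM.E P A B ↔ ∀ p, p ∈ P ↔ ∃ a b, a ∈ A ∧ b ∈ B ∧ p = op a b := by
  simp only [IsProd, isOPair_iff]
  rfl

theorem ap2_mem {f A B C a b : N} (hf : IsOp2 ZM.E f A B C) (ha : a ∈ A) (hb : b ∈ B) :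
    ap2 ZM.E f a b ∈ C := by
  obtain ⟨P, hP, hf⟩ := hf
  rw [ap2, opair_eq]
  exact ap_mem hf ((isProd_iff.1 hP _).2 ⟨a, b, ha, hb, rfl⟩)

theorem ap2_eq_iff {f A B C a b c : N} (hf : IsOp2 ZM.E f A B C) (ha : a ∈ A) (hb : b ∈ B) :
    ap2 ZM.E f a b = c ↔ op (op a b) c ∈ f := by
  obtain ⟨P, hP, hf⟩ := hf
  have h := (isProd_iff.1 hP _).2 ⟨a, b, ha, hb, rfl⟩
  rw [ap2, opair_eq]
  exact ⟨fun e => e ▸ op_ap_mem hf h, ap_eq hf h⟩

theorem isInductive_iff {u : N} : IsInductive ZM.E u ↔ Ind u := by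
  constructor
  · rintro ⟨⟨e, he, he'⟩, h⟩
    refine ⟨eq_emp he' ▸ he, fun x hx => ?_⟩
    obtain ⟨s, hs, hs'⟩ := h x hx
    have : s = ins x x := ext fun z => (hs' z).trans mem_ins.symm
    exact this ▸ hs
  · rintro ⟨h1, h2⟩
    exact ⟨⟨_, h1, not_mem_emp⟩, fun x hx => ⟨_, h2 x hx, fun z => mem_ins⟩⟩

theorem isOmega_iff {w : N} : IsOmega ZM.E w ↔ w = omega N := by
  constructor
  · rintro ⟨h2, h3⟩
    exact ext fun z => ⟨h3 _ (isInductive_iff.2 ind_omega) z,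
      fun hz => mem_omega.1 hz w (isInductive_iff.1 h2)⟩
  · rintro rfl
    exact ⟨isInductive_iff.2 ind_omega, fun u hu x hx => mem_omega.1 hx u (isInductive_iff.1 hu)⟩

theorem ap2_eq (f x y : N) : S.ap2 ZM.E f x y = S.ap ZM.E f (op x y) := by
  rw [S.ap2, opair_eq]

theorem ap_eq' {f x y : N} (h : op x y ∈ f) (hu : ∀ z, op x z ∈ f → z = y) :
    S.ap ZM.E f x = y := by
  have h1 : ∃! y, PairMem ZM.E x y f :=
    ⟨y, pairMem_iff.2 h, fun z hz => hu z (pairMem_iff.1 hz)⟩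
  rw [S.ap, dif_pos h1]
  exact hu _ (pairMem_iff.1 h1.choose_spec.1)

theorem defF_ap : DefF N (fun p : N × N => S.ap ZM.E p.1 p.2) := by
  refine defF_of_rel (R := fun (p : N × N) (y : N) =>
    (op p.2 y ∈ p.1 ∧ ∀ z : N, op p.2 z ∈ p.1 → z = y) ∨
      ((¬ ∃ w : N, op p.2 w ∈ p.1 ∧ ∀ z : N, op p.2 z ∈ p.1 → z = w) ∧ y = p.2))
    (fun _ _ => inferInstance) (by fun_prop) fun p y _ _ => ?_
  constructor
  · rintro (⟨h1, h2⟩ | ⟨h1, rfl⟩)
    · exact ap_eq' h1 h2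
    · rw [S.ap, dif_neg]
      rintro ⟨w, h2, h3⟩
      exact h1 ⟨w, pairMem_iff.1 h2, fun z hz => h3 z (pairMem_iff.2 hz)⟩
  · rintro rfl
    by_cases h : ∃ w : N, op p.2 w ∈ p.1 ∧ ∀ z : N, op p.2 z ∈ p.1 → z = w
    · obtain ⟨w, h1, h2⟩ := h
      rw [ap_eq' h1 h2]
      exact Or.inl ⟨h1, h2⟩
    · refine Or.inr ⟨h, ?_⟩
      rw [S.ap, dif_neg]
      rintro ⟨w, h2, h3⟩
      exact h ⟨w, pairMem_iff.1 h2, fun z hz => h3 z (pairMem_iff.2 hz)⟩

@[fun_prop] theorem defF_sap {f x : α → N} (hf : DefF N f) (hx : DefF N x) :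
    DefF N (fun a => S.ap ZM.E (f a) (x a)) :=
  DefF.comp2 (F := fun f x : N => S.ap ZM.E f x) defF_ap hf hx

@[fun_prop] theorem defF_sap2 {f x y : α → N} (hf : DefF N f) (hx : DefF N x) (hy : DefF N y) :
    DefF N (fun a => S.ap2 ZM.E (f a) (x a) (y a)) := by
  simp only [ap2_eq]
  fun_prop

/-- A function with internal values is definable if the code of its value is definable. -/
theorem defF_of_code {f : α → β} {F : α → N} (h1 : ∀ a, Intl N a → Intl N (f a)) (hF : DefF N F)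
    (h2 : ∀ a, Intl N a → F a = code N (f a)) : DefF N f :=
  defF_of_rel (R := fun a b => F a = code N b) h1 (by fun_prop) fun a b ha hb => by
    rw [h2 a ha]
    exact ⟨code_inj (h1 a ha) hb, fun e => e ▸ rfl⟩

theorem isFunction_iff {f A B : N} : IsFunction ZM.E f A B ↔
    (∀ p, p ∈ f → ∃ x y, x ∈ A ∧ y ∈ B ∧ p = op x y) ∧ ∀ x, x ∈ A → ∃! y, op x y ∈ f := by
  simp only [← isOPair_iff (N := N)]
  simp only [← pairMem_iff (N := N)]
  exact ⟨fun h => ⟨h.pairs, h.value⟩, fun h => ⟨h.1, h.2⟩⟩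

theorem fun_op_ap {f A B x : N} (h : IsFunction ZM.E f A B) (hx : x ∈ A) :
    op x (S.ap ZM.E f x) ∈ f := by
  obtain ⟨y, h1, h2⟩ := (isFunction_iff.1 h).2 x hx
  rwa [ap_eq' h1 h2]

theorem fun_mem {f A B x y : N} (h : IsFunction ZM.E f A B) (hxy : op x y ∈ f) :
    x ∈ A ∧ y ∈ B ∧ S.ap ZM.E f x = y := by
  obtain ⟨x', y', h1, h2, h3⟩ := (isFunction_iff.1 h).1 _ hxy
  obtain ⟨rfl, rfl⟩ := op_inj.1 h3
  obtain ⟨z, -, h5⟩ := (isFunction_iff.1 h).2 x h1
  exact ⟨h1, h2, ap_eq' hxy fun w hw => (h5 w hw).trans (h5 y hxy).symm⟩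

theorem fun_ap_mem {f A B x : N} (h : IsFunction ZM.E f A B) (hx : x ∈ A) :
    S.ap ZM.E f x ∈ B := (fun_mem h (fun_op_ap h hx)).2.1

/-! ### The set of codes; graphs -/

/-- `A` is the set of the codes of the internal elements of `α`. -/
def IsCar (N : Type v) [ZM N] (α : Type*) [Coded N α] (A : N) : Prop := ∀ x, x ∈ A ↔ Dom N α x

theorem IsCar.code_mem {A : N} (h : IsCar N α A) (a : α) [ha : Intl N a] : code N a ∈ A :=
  (h _).2 ⟨a, ha, rfl⟩

theorem IsCar.exists {A x : N} (h : IsCar N α A) (hx : x ∈ A) : ∃ a : α, Intl N a ∧ code N a = x :=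
  (h x).1 hx

theorem IsCar.bdd {A : N} (h : IsCar N α A) : Bdd N α := ⟨A, h⟩

theorem isCar_el (A : N) : IsCar N (El A) A := fun x =>
  ⟨fun h => ⟨⟨x, h⟩, Tot.intl _, rfl⟩, fun ⟨s, _, h⟩ => h ▸ s.2⟩

theorem isCar_omega : IsCar N (NN N) (omega N) := isCar_el (omega N)

theorem IsCar.prod {A B P : N} (hA : IsCar N α A) (hB : IsCar N β B) (h : S.IsProd ZM.E P A B) :
    IsCar N (α × β) P := by
  intro x
  rw [isProd_iff.1 h]
  constructor
  · rintro ⟨a, b, ha, hb, rfl⟩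
    obtain ⟨a, _, rfl⟩ := hA.exists ha
    obtain ⟨b, _, rfl⟩ := hB.exists hb
    exact ⟨(a, b), inferInstance, rfl⟩
  · rintro ⟨p, hp, rfl⟩
    exact ⟨_, _, hA.code_mem p.1, hB.code_mem p.2, rfl⟩

theorem IsCar.isProd {A B P : N} (hA : IsCar N α A) (hB : IsCar N β B)
    (h : IsCar N (α × β) P) : S.IsProd ZM.E P A B := by
  refine isProd_iff.2 fun x => (h x).trans ?_
  constructor
  · rintro ⟨p, hp, rfl⟩
    exact ⟨_, _, hA.code_mem p.1, hB.code_mem p.2, rfl⟩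
  · rintro ⟨a, b, ha, hb, rfl⟩
    obtain ⟨a, _, rfl⟩ := hA.exists ha
    obtain ⟨b, _, rfl⟩ := hB.exists hb
    exact ⟨(a, b), inferInstance, rfl⟩

/-- the set of the codes -/
noncomputable def car (N : Type v) [ZM N] (α : Type*) [Coded N α] [Bdd N α] : N :=
  (Bdd.car (N := N) (α := α)).choose

theorem isCar_car [Bdd N α] : IsCar N α (car N α) := (Bdd.car (N := N) (α := α)).choose_spec

/-- the graph of a function, as a set of the model -/
noncomputable def gr (N : Type v) [ZM N] {α β : Type*} [Coded N α] [Coded N β] (f : α → β) : N :=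
  code N {p : α × β | Intl N p ∧ f p.1 = p.2}

section

variable [Bdd N α] [Bdd N β] {f : α → β}

theorem mem_gr (hf : DefF N f) {p : N} :
    p ∈ gr N f ↔ ∃ a, Intl N a ∧ p = op (code N a) (code N (f a)) := by
  rw [gr, mem_code_set (intl_setOf (by fun_prop))]
  constructor
  · rintro ⟨⟨a, b⟩, ⟨h1, h2⟩, rfl⟩
    obtain rfl : f a = b := h2
    exact ⟨a, (intl_prod.1 h1).1, rfl⟩
  · rintro ⟨a, ha, rfl⟩
    exact ⟨(a, f a), ⟨intl_prod.2 ⟨ha, hf.intl a⟩, rfl⟩, rfl⟩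

theorem ap_gr (hf : DefF N f) (a : α) [ha : Intl N a] :
    S.ap ZM.E (gr N f) (code N a) = code N (f a) := by
  refine ap_eq' ((mem_gr hf).2 ⟨a, ha, rfl⟩) fun z hz => ?_
  obtain ⟨b, hb, h⟩ := (mem_gr hf).1 hz
  obtain ⟨h1, rfl⟩ := op_inj.1 h
  rw [code_inj ha hb h1]

theorem isFunction_gr (hf : DefF N f) {A B : N} (hA : IsCar N α A) (hB : IsCar N β B) :
    IsFunction ZM.E (gr N f) A B := by
  refine isFunction_iff.2 ⟨fun p hp => ?_, fun x hx => ?_⟩
  · obtain ⟨a, ha, rfl⟩ := (mem_gr hf).1 hp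
    have := hf.intl a
    exact ⟨_, _, hA.code_mem a, hB.code_mem (f a), rfl⟩
  · obtain ⟨a, ha, rfl⟩ := hA.exists hx
    refine ⟨code N (f a), (mem_gr hf).2 ⟨a, ha, rfl⟩, fun z hz => ?_⟩
    obtain ⟨b, hb, h⟩ := (mem_gr hf).1 hz
    obtain ⟨h1, rfl⟩ := op_inj.1 h
    rw [code_inj ha hb h1]

theorem ap2_gr [Bdd N γ] {f : α × β → γ} (hf : DefF N f) (a : α) (b : β) [Intl N a] [Intl N b] :
    S.ap2 ZM.E (gr N f) (code N a) (code N b) = code N (f (a, b)) := by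
  rw [ap2_eq]
  exact ap_gr hf (a, b)

theorem isOp2_gr [Bdd N γ] {f : α × β → γ} (hf : DefF N f) {A B C : N} (hA : IsCar N α A)
    (hB : IsCar N β B) (hC : IsCar N γ C) : S.IsOp2 ZM.E (gr N f) A B C :=
  ⟨car N (α × β), hA.isProd hB isCar_car, isFunction_gr hf isCar_car hC⟩

end

/-- A function of the model is the code of an internal function. -/
theorem exists_fun_of_fun [Tot N α] {s A B : N} (hA : IsCar N α A) (hB : IsCar N β B)
    (h : IsFunction ZM.E s A B) :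
    ∃ f : α → β, Intl N f ∧ ∀ n, S.ap ZM.E s (code N n) = code N (f n) := by
  choose f h1 h2 using fun n : α => hB.exists (fun_ap_mem h (hA.code_mem n))
  exact ⟨f, (defF_of_code (F := fun n : α => S.ap ZM.E s (code N n)) (fun n _ => h1 n)
    (by fun_prop) fun n _ => (h2 n).symm).toIntl, fun n => (h2 n).symm⟩

/-- A sequence of the model is the code of an internal sequence. -/
theorem exists_seq_of_fun {s B : N} (hB : IsCar N β B) (h : IsFunction ZM.E s (omega N) B) :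
    ∃ f : NN N → β, Intl N f ∧ ∀ n : NN N, S.ap ZM.E s n.val = code N (f n) :=
  exists_fun_of_fun isCar_omega hB h

/-- A subset of the set of codes is the code of an internal set. -/
theorem IsCar.exists_set {A Y : N} (hA : IsCar N α A) (h : S.Sub ZM.E Y A) :
    ∃ s : Set α, Intl N s ∧ code N s = Y := exists_set_of_sub fun x hx => hA.exists (h x hx)

theorem IsCar.sub_code {A : N} (hA : IsCar N α A) {s : Set α} (hs : Intl N s) :
    S.Sub ZM.E (code N s) A := by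
  intro x hx
  obtain ⟨a, ha, rfl⟩ := (mem_code_set hs).1 hx
  have := hs.of_mem ha
  exact hA.code_mem a

theorem sub_code_iff {s t : Set α} (hs : Intl N s) (ht : Intl N t) :
    S.Sub ZM.E (code N s) (code N t) ↔ s ⊆ t := by
  constructor
  · intro h a ha
    exact (code_mem_code ht (hs.of_mem ha)).1 (h _ ((code_mem_code hs (hs.of_mem ha)).2 ha))
  · intro h y hy
    obtain ⟨a, ha, rfl⟩ := (mem_code_set hs).1 hy
    exact (mem_code_set ht).2 ⟨a, h ha, rfl⟩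

/-- A finite set of the model is the image of an initial segment under an internal sequence. -/
theorem isFinite_code {s : Set α} (hs : Intl N s) (a₀ : α) [Intl N a₀] :
    S.IsFinite ZM.E (code N s) ↔
      ∃ (n : NN N) (v : NN N → α), Intl N v ∧ s = v '' Set.Iio n := by
  classical
  constructor
  · rintro ⟨w, n, f, hw, hn, hf, hf'⟩
    obtain rfl := isOmega_iff.1 hw
    have h1 : ∀ i : NN N, ∃ a : α, Intl N a ∧ (i.val ∈ n → a ∈ s) ∧
        code N a = if i.val ∈ n then S.ap ZM.E f i.val else code N a₀ := by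
      intro i
      by_cases hi : i.val ∈ n
      · obtain ⟨a, ha, h⟩ := (mem_code_set hs).1 (fun_ap_mem hf hi)
        exact ⟨a, hs.of_mem ha, fun _ => ha, by rw [if_pos hi, h]⟩
      · exact ⟨a₀, inferInstance, fun h => absurd h hi, by rw [if_neg hi]⟩
    choose v h2 h3 h4 using h1
    refine ⟨NN.mk n hn, v, (defF_of_code (F := fun i : NN N =>
      if i.val ∈ n then S.ap ZM.E f i.val else code N a₀) (fun i _ => h2 i) (by fun_prop)
      fun i _ => (h4 i).symm).toIntl, Set.ext fun a => ⟨fun ha => ?_, ?_⟩⟩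
    · obtain ⟨x, hx, h⟩ := hf' _ ((mem_code_set hs).2 ⟨a, ha, rfl⟩)
      refine ⟨NN.mk x (omega_trans hn x hx), hx, code_inj (h2 _) (hs.of_mem ha) ?_⟩
      rw [h4, if_pos (show (NN.mk x (omega_trans hn x hx)).val ∈ n from hx)]
      exact (fun_mem hf (pairMem_iff.1 h)).2.2
    · rintro ⟨i, hi, rfl⟩
      exact h3 i hi
  · rintro ⟨n, v, hv, rfl⟩
    have h1 : DefF N (fun i : NN N => op i.val (code N (v i))) := by fun_prop
    have h0 : Intl N (Set.Iio n) := intl_setOfT (P := fun i : NN N => i.val ∈ n.val) (by fun_prop)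
    have h2 := intl_image h1 (Set.Iio n)
    have h3 : ∀ p, p ∈ code N ((fun i : NN N => op i.val (code N (v i))) '' Set.Iio n) ↔
        ∃ i, i < n ∧ op i.val (code N (v i)) = p := fun p => code_mem_code h2 (a := p) inferInstance
    refine ⟨omega N, n.val, code N ((fun i : NN N => op i.val (code N (v i))) '' Set.Iio n),
      isOmega_iff.2 rfl, n.prop, isFunction_iff.2 ⟨fun p hp => ?_,
      fun x hx => ?_⟩, fun y hy => ?_⟩
    · obtain ⟨i, hi, rfl⟩ := (h3 p).1 hp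
      exact ⟨_, _, hi, (mem_code_set hs).2 ⟨_, ⟨i, hi, rfl⟩, rfl⟩, rfl⟩
    · refine ⟨_, (h3 _).2 ⟨NN.mk x (omega_trans n.prop x hx), hx, rfl⟩, fun y hy => ?_⟩
      obtain ⟨i, -, h⟩ := (h3 _).1 hy
      obtain ⟨rfl, rfl⟩ := op_inj.1 h
      rfl
    · obtain ⟨_, ⟨i, hi, rfl⟩, rfl⟩ := (mem_code_set hs).1 hy
      exact ⟨_, hi, pairMem_iff.2 ((h3 _).2 ⟨i, hi, rfl⟩)⟩

end Vale.Agent.P129BP
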