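import Vale.Agent.P129BP.Main
import Vale.Agent.P129BM.Defs0

/-!
# The statement from the abstract separable quotient property
-/

namespace Vale.Agent.P129BP

open Vale.Agent.P323.Z Vale.Agent.P129B Vale.Agent.P129Z.S

universe v

variable {N : Type v} [ZM N]

variable (N) in
/-- Every infinite-dimensional coded Banach space has the abstract property. -/
def AllAbs : Prop :=
  ∀ (R : Type v) [Field R] [LinearOrder R] [IsStrictOrderedRing R] [Coded N R] [RF N R]
    (K : Type v) [Field K] [Algebra R K] [Nm K R] [KA R K] [Coded N K] [KF N R K]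
    (E : Type v) [AddCommGroup E] [Module K E] [Nm E R] [NA R K E] [Coded N E] [NS N R K E]
    [Cpl N R E], ¬ IFinDim N K E → AbsSQ N (R := R) K E

theorem allSQ_of_abs (H : AllAbs N) : AllSQ N :=
  fun R _ _ _ _ _ K _ _ _ _ _ _ E _ _ _ _ _ _ _ h => H R K E h

theorem sq_of_abs (H : AllAbs N) : SQReal (ZM.E (N := N)) ∧ SQComplex (ZM.E (N := N)) :=
  ⟨sqReal_of (allSQ_of_abs H), sqComplex_of (allSQ_of_abs H)⟩

end Vale.Agent.P129BP
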