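import Vale.Agent.P129BP.Rep1
import Mathlib.Algebra.Group.MinimalAxioms
import Mathlib.Algebra.Module.MinimalAxioms

/-!
# Scalars and normed spaces of the model and coded structures
-/

namespace Vale.Agent.P129BP

open Vale.Agent.P323.Z Vale.Agent.P129B Vale.Agent.P129Z.S

universe v

variable {N : Type v} [ZM N] {R : Type*} [Coded N R]

/-- `K₀` represents the field `K` with the absolute value `nk`. -/
structure RepK (K : Type*) [Coded N K] [Field K] (nk : K → R) (K₀ : Scalars N) : Prop where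
  car : IsCar N K K₀.car
  add : ∀ a b : K, ap2 ZM.E K₀.add (code N a) (code N b) = code N (a + b)
  mul : ∀ a b : K, ap2 ZM.E K₀.mul (code N a) (code N b) = code N (a * b)
  one : K₀.one = code N (1 : K)
  abs : ∀ a : K, ap ZM.E K₀.abs (code N a) = code N (nk a)

/-- `X₀` represents the space `E` with the norm `ne`. -/
structure RepX (K E : Type*) [Coded N K] [Field K] [Coded N E] [AddCommGroup E] [Module K E]
    (ne : E → R) (X₀ : Space N) : Prop where
  car : IsCar N E X₀.car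
  add : ∀ a b : E, ap2 ZM.E X₀.add (code N a) (code N b) = code N (a + b)
  zero : X₀.zero = code N (0 : E)
  smul : ∀ (a : K) (b : E), ap2 ZM.E X₀.smul (code N a) (code N b) = code N (a • b)
  norm : ∀ a : E, ap ZM.E X₀.norm (code N a) = code N (ne a)

variable [Field R] [LinearOrder R] [Tot N R] {R₀ : Reals N}

theorem repK_real [IsStrictOrderedRing R] {K₀ : Scalars N} (hR : RepR R R₀)
    (h : IsRealScalars ZM.E R₀ K₀) : RepK R (fun a : R => |a|) K₀ where
  car := h.car ▸ hR.car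
  add := h.add ▸ hR.add
  mul := h.mul ▸ hR.mul
  one := h.one ▸ hR.one
  abs a := by
    have h0 : code N a ∈ R₀.car := hR.car.code_mem a
    obtain ⟨r, h1⟩ := hR.car.exT (fun_ap_mem h.abs_fun (h.car ▸ h0))
    have h2 := h.abs_nonneg _ h0
    have h3 := h.abs_sq _ h0
    rw [← h1, hR.zero, hR.le] at h2
    rw [← h1, hR.mul, hR.mul] at h3
    rw [← h1, ← abs_of_nonneg h2, abs_eq_abs.2 (mul_self_eq_mul_self_iff.1 (code_injT h3))]

theorem exists_real [IsStrictOrderedRing R] (hd : DefF N (fun a : R => |a|)) (hR : RepR R R₀) :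
    ∃ K₀ : Scalars N, IsRealScalars ZM.E R₀ K₀ ∧ RepK R (fun a : R => |a|) K₀ := by
  have h2 : ∀ a : R, ap ZM.E (gr N fun a : R => |a|) (code N a) = code N |a| := fun a => ap_gr hd a
  refine ⟨⟨R₀.car, R₀.add, R₀.mul, R₀.one, gr N fun a : R => |a|⟩,
    ⟨rfl, rfl, rfl, rfl, isFunction_gr hd hR.car hR.car, fun x hx => ?_, fun x hx => ?_⟩,
    ⟨hR.car, hR.add, hR.mul, hR.one, h2⟩⟩
  · obtain ⟨a, rfl⟩ := hR.car.exT hx
    rw [h2 a, hR.zero, hR.le]
    exact abs_nonneg a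
  · obtain ⟨a, rfl⟩ := hR.car.exT hx
    rw [h2 a, hR.mul, hR.mul, abs_mul_abs_self]

/-- `K` is the field of complex numbers over `R`, coded by pairs. -/
structure IsCx (N : Type v) [ZM N] {R : Type*} [Coded N R] [Field R] [LinearOrder R] {K : Type*}
    [Coded N K] [Field K] (mk : R → R → K) (nk : K → R) : Prop where
  surj : ∀ z, ∃ a b, z = mk a b
  code : ∀ a b, code N (mk a b) = op (code N a) (code N b)
  add : ∀ a b c d, mk a b + mk c d = mk (a + c) (b + d)
  mul : ∀ a b c d, mk a b * mk c d = mk (a * c - b * d) (a * d + b * c)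
  one : (1 : K) = mk 1 0
  nonneg : ∀ z, 0 ≤ nk z
  sq : ∀ a b, nk (mk a b) * nk (mk a b) = a * a + b * b

variable {K : Type*} [Coded N K] [Field K] [Tot N K] {nk : K → R} {K₀ : Scalars N}

theorem IsCx.isProd {mk : R → R → K} (hC : IsCx N mk nk) (hR : RepR R R₀) {A : N} :
    IsProd ZM.E A R₀.car R₀.car ↔ IsCar N K A := by
  rw [isProd_iff]
  refine forall_congr' fun x => iff_congr Iff.rfl ⟨?_, ?_⟩
  · rintro ⟨a, b, ha, hb, rfl⟩
    obtain ⟨a, rfl⟩ := hR.car.exT ha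
    obtain ⟨b, rfl⟩ := hR.car.exT hb
    exact ⟨mk a b, inferInstance, hC.code a b⟩
  · rintro ⟨z, -, rfl⟩
    obtain ⟨a, b, rfl⟩ := hC.surj z
    exact ⟨_, _, hR.car.code_mem a, hR.car.code_mem b, hC.code a b⟩

theorem repK_complex [IsStrictOrderedRing R] {mk : R → R → K} (hC : IsCx N mk nk)
    (hR : RepR R R₀) (h : IsComplexScalars ZM.E R₀ K₀) : RepK K nk K₀ := by
  have hc : ∀ a : R, code N a ∈ R₀.car := fun a => hR.car.code_mem a
  have hcar := (hC.isProd hR).1 h.car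
  refine ⟨hcar, fun z w => ?_, fun z w => ?_, ?_, fun z => ?_⟩
  · obtain ⟨a, b, rfl⟩ := hC.surj z
    obtain ⟨c, d, rfl⟩ := hC.surj w
    have := h.add _ _ _ _ (hc a) (hc b) (hc c) (hc d)
    rw [opair_eq, opair_eq, opair_eq, hR.add, hR.add] at this
    rwa [hC.add, hC.code, hC.code, hC.code]
  · obtain ⟨a, b, rfl⟩ := hC.surj z
    obtain ⟨c, d, rfl⟩ := hC.surj w
    have := h.mul _ _ _ _ _ (hc a) (hc b) (hc c) (hc d) (hc (a * c - b * d)) (by
      rw [hR.mul, hR.mul, hR.add, sub_add_cancel])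
    rw [opair_eq, opair_eq, opair_eq, hR.mul, hR.mul, hR.add] at this
    rwa [hC.mul, hC.code, hC.code, hC.code]
  · rw [h.one, opair_eq, hR.one, hR.zero, hC.one, hC.code]
  · obtain ⟨r, h3⟩ := hR.car.exT (fun_ap_mem h.abs_fun (hcar.code_mem z))
    have h4 := h.abs_nonneg _ (hcar.code_mem z)
    obtain ⟨a, b, rfl⟩ := hC.surj z
    have h5 := h.abs_sq _ _ (hc a) (hc b)
    rw [← h3, hR.zero, hR.le] at h4
    rw [opair_eq, ← hC.code, ← h3, hR.mul, hR.mul, hR.mul, hR.add, ← hC.sq] at h5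
    rw [← h3, (mul_self_inj h4 (hC.nonneg _)).1 (code_injT h5)]

theorem exists_complex [DefAdd N K] [DefMul N K] {mk : R → R → K} (hC : IsCx N mk nk)
    (hd : DefF N nk) (hR : RepR R R₀) :
    ∃ K₀ : Scalars N, IsComplexScalars ZM.E R₀ K₀ ∧ RepK K nk K₀ := by
  have hA : IsCar N K (car N K) := isCar_car
  have ha : DefF N (fun p : K × K => p.1 + p.2) := by fun_prop
  have hm : DefF N (fun p : K × K => p.1 * p.2) := by fun_prop
  let K₀ : Scalars N := ⟨car N K, gr N (fun p : K × K => p.1 + p.2),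
    gr N (fun p : K × K => p.1 * p.2), code N (1 : K), gr N nk⟩
  have hK : RepK K nk K₀ := ⟨hA, fun a b => ap2_gr ha a b, fun a b => ap2_gr hm a b, rfl,
    fun a => ap_gr hd a⟩
  have hc : ∀ a b : R, opair ZM.E (code N a) (code N b) = code N (mk a b) :=
    fun a b => (opair_eq _ _).trans (hC.code a b).symm
  refine ⟨K₀, ⟨(hC.isProd hR).2 hA, isOp2_gr ha hA hA hA, isOp2_gr hm hA hA hA,
    fun a b c d ha hb hc' hd => ?_, fun a b c d u ha hb hc' hd hu h => ?_, ?_,
    isFunction_gr hd hA hR.car, fun x hx => ?_, fun a b ha hb => ?_⟩, hK⟩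
  · obtain ⟨a, rfl⟩ := hR.car.exT ha
    obtain ⟨b, rfl⟩ := hR.car.exT hb
    obtain ⟨c, rfl⟩ := hR.car.exT hc'
    obtain ⟨d, rfl⟩ := hR.car.exT hd
    rw [hR.add, hR.add, hc, hc, hc, hK.add, hC.add]
  · obtain ⟨a, rfl⟩ := hR.car.exT ha
    obtain ⟨b, rfl⟩ := hR.car.exT hb
    obtain ⟨c, rfl⟩ := hR.car.exT hc'
    obtain ⟨d, rfl⟩ := hR.car.exT hd
    obtain ⟨u, rfl⟩ := hR.car.exT hu
    rw [hR.mul, hR.mul, hR.add] at h
    rw [hR.mul, hR.mul, hR.add, hc, hc, hc, hK.mul, hC.mul, eq_sub_of_add_eq (code_injT h)]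
  · rw [hR.one, hR.zero, hc, ← hC.one]
  · obtain ⟨a, rfl⟩ := hA.exT hx
    rw [hK.abs, hR.zero, hR.le]
    exact hC.nonneg a
  · obtain ⟨a, rfl⟩ := hR.car.exT ha
    obtain ⟨b, rfl⟩ := hR.car.exT hb
    rw [hc, hK.abs, hR.mul, hR.mul, hR.mul, hR.add, hC.sq]

variable {X₀ : Space N}

/-- the points of a Banach space of the model -/
def XT (_hR : RepR R R₀) (_hK : RepK K nk K₀) (_h : IsBanach ZM.E R₀ K₀ X₀) : Type v := El X₀.car

namespace XT

variable {hR : RepR R R₀} {hK : RepK K nk K₀} {h : IsBanach ZM.E R₀ K₀ X₀}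

noncomputable instance : Coded N (XT hR hK h) := inferInstanceAs (Coded N (El X₀.car))
instance : Tot N (XT hR hK h) := inferInstanceAs (Tot N (El X₀.car))

noncomputable instance : Add (XT hR hK h) := ⟨fun x y => ⟨_, ap2_mem h.add_op x.2 y.2⟩⟩
instance : Zero (XT hR hK h) := ⟨⟨X₀.zero, h.zero_mem⟩⟩
noncomputable instance : Neg (XT hR hK h) :=
  ⟨fun x => ⟨(h.add_neg x.1 x.2).choose, (h.add_neg x.1 x.2).choose_spec.1⟩⟩

noncomputable instance : AddCommGroup (XT hR hK h) :=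
  { AddGroup.ofRightAxioms (G := XT hR hK h)
      (fun a b c => Subtype.ext (h.add_assoc _ _ _ a.2 b.2 c.2))
      (fun a => Subtype.ext (h.add_zero _ a.2))
      (fun a => Subtype.ext (h.add_neg a.1 a.2).choose_spec.2) with
    add_comm := fun a b => Subtype.ext (h.add_comm _ _ a.2 b.2) }

noncomputable instance : SMul K (XT hR hK h) :=
  ⟨fun c x => ⟨_, ap2_mem h.smul_op (hK.car.code_mem c) x.2⟩⟩

noncomputable instance : Module K (XT hR hK h) :=
  Module.ofMinimalAxioms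
    (fun a x y => Subtype.ext (h.smul_add _ _ _ (hK.car.code_mem a) x.2 y.2))
    (fun a b x => Subtype.ext (by
      have := h.add_smul _ _ _ (hK.car.code_mem a) (hK.car.code_mem b) x.2
      rwa [hK.add] at this))
    (fun a b x => Subtype.ext (by
      have := h.mul_smul _ _ _ (hK.car.code_mem a) (hK.car.code_mem b) x.2
      rwa [hK.mul] at this))
    (fun x => Subtype.ext (by
      have := h.one_smul _ x.2
      rwa [hK.one] at this))

/-- the norm of a point -/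
noncomputable def nrm (x : XT hR hK h) : R := (hR.car.exT (fun_ap_mem h.norm_fun x.2)).choose

omit [Tot N R] in
theorem rep : RepX K (XT hR hK h) nrm X₀ :=
  ⟨isCar_el X₀.car, fun _ _ => rfl, rfl, fun _ _ => rfl,
    fun x => (hR.car.exT (fun_ap_mem h.norm_fun x.2)).choose_spec.symm⟩

end XT

variable {E : Type*} [Coded N E] [AddCommGroup E] [Module K E] [Tot N E] {ne : E → R}

namespace RepX

omit [Field R] [LinearOrder R] [Tot N R] [Tot N K] in
theorem defAdd (hX : RepX K E ne X₀) : DefAdd N E :=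
  ⟨defF_of_code (F := fun p : E × E => ap2 ZM.E X₀.add (code N p.1) (code N p.2))
    (fun _ _ => inferInstance) (by fun_prop) fun _ _ => hX.add _ _⟩

omit [Field R] [LinearOrder R] [Tot N R] [Tot N K] in
theorem defSMul (hX : RepX K E ne X₀) : DefSMul N K E :=
  ⟨defF_of_code (F := fun p : K × E => ap2 ZM.E X₀.smul (code N p.1) (code N p.2))
    (fun _ _ => inferInstance) (by fun_prop) fun _ _ => hX.smul _ _⟩

omit [Field R] [LinearOrder R] [Tot N K] [Tot N E] in
theorem defNorm (hX : RepX K E ne X₀) : DefF N ne :=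
  defF_of_code (F := fun a : E => ap ZM.E X₀.norm (code N a))
    (fun _ _ => inferInstance) (by fun_prop) fun _ _ => hX.norm _

theorem nm_smul (hX : RepX K E ne X₀) (hR : RepR R R₀) (hK : RepK K nk K₀)
    (h : IsBanach ZM.E R₀ K₀ X₀) (c : K) (x : E) : ne (c • x) = nk c * ne x := by
  have h1 := h.norm_smul _ _ (hK.car.code_mem c) (hX.car.code_mem x)
  rw [hX.smul, hX.norm, hX.norm, hK.abs, hR.mul] at h1
  exact code_injT h1

omit [Tot N K] in
theorem nm_add (hX : RepX K E ne X₀) (hR : RepR R R₀) (h : IsBanach ZM.E R₀ K₀ X₀) (x y : E) :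
    ne (x + y) ≤ ne x + ne y := by
  have h1 := h.norm_add _ _ (hX.car.code_mem x) (hX.car.code_mem y)
  rwa [hX.add, hX.norm, hX.norm, hX.norm, hR.add, hR.le] at h1

omit [Tot N K] [Tot N R] in
theorem eq_zero (hX : RepX K E ne X₀) (hR : RepR R R₀) (h : IsBanach ZM.E R₀ K₀ X₀) (x : E)
    (hx : ne x = 0) : x = 0 := by
  have h1 := h.eq_zero_of_norm _ (hX.car.code_mem x) (by rw [hX.norm, hR.zero, hx])
  rw [hX.zero] at h1
  exact code_injT h1

omit [Tot N K] [Tot N R] in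
theorem close (hX : RepX K E ne X₀) (hR : RepR R R₀) (e : R) (x y : E) :
    Close ZM.E R₀ X₀ (code N e) (code N x) (code N y) ↔ ne (x - y) < e := by
  constructor
  · rintro ⟨z, hz, h1, h2⟩
    obtain ⟨z, rfl⟩ := hX.car.exT hz
    rw [hX.add] at h1
    rw [hX.norm, hR.lt] at h2
    rwa [code_injT h1, add_sub_cancel_left]
  · intro h
    refine ⟨_, hX.car.code_mem (x - y), ?_, ?_⟩
    · rw [hX.add, add_sub_cancel]
    · rwa [hX.norm, hR.lt]

end RepX

/-- Every internal Cauchy sequence converges. -/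
def Cmp (N : Type v) [ZM N] {R : Type*} [Zero R] [LT R] {E : Type*} [Coded N E] [Sub E]
    (ne : E → R) : Prop :=
  ∀ s : NN N → E, Intl N s → (∀ ε, 0 < ε → ∃ n, ∀ k l, n < k → n < l → ne (s k - s l) < ε) →
    ∃ x, ∀ ε, 0 < ε → ∃ n, ∀ k, n < k → ne (s k - x) < ε

omit [Tot N K] in
theorem RepX.cmp (hX : RepX K E ne X₀) (hR : RepR R R₀) (h : IsBanach ZM.E R₀ K₀ X₀) :
    Cmp N ne := by
  intro s hs hc
  have h1 := DefF.ofIntl (N := N) s
  have h2 : ∀ n : NN N, ap ZM.E (gr N s) n.val = code N (s n) := fun n => ap_gr h1 n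
  obtain ⟨x, h3, h4⟩ := h.complete (omega N) (gr N s) (isOmega_iff.2 rfl)
    (isFunction_gr h1 isCar_omega hX.car) (by
      intro e he0
      obtain ⟨e, he, rfl⟩ := hR.pos.1 he0
      obtain ⟨n, hn⟩ := hc e he
      refine ⟨n.val, n.prop, fun k l hk hl h5 h6 => ?_⟩
      have := hn (NN.mk k hk) (NN.mk l hl) h5 h6
      rwa [← hX.close hR, ← h2, ← h2] at this)
  obtain ⟨x, rfl⟩ := hX.car.exT h3
  refine ⟨x, fun e he => ?_⟩
  obtain ⟨n, h8, h9⟩ := h4 (code N e) (hR.pos.2 ⟨e, he, rfl⟩)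
  refine ⟨NN.mk n h8, fun k hk => ?_⟩
  have := h9 k.val k.prop hk
  rwa [h2, hX.close hR] at this

/-- A coded complete normed space is represented by a Banach space of the model. -/
theorem exists_space [DefAdd N E] [DefSMul N K E] (hR : RepR R R₀) (hK : RepK K nk K₀)
    (hd : DefF N ne) (n0 : ∀ x, ne x = 0 → x = 0) (n1 : ∀ c x, ne (c • x) = nk c * ne x)
    (n2 : ∀ x y, ne (x + y) ≤ ne x + ne y) (hc : Cmp N ne) :
    ∃ X₀ : Space N, IsBanach ZM.E R₀ K₀ X₀ ∧ RepX K E ne X₀ := by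
  have hA : IsCar N E (car N E) := isCar_car
  have ha : DefF N (fun p : E × E => p.1 + p.2) := by fun_prop
  have hm : DefF N (fun p : K × E => p.1 • p.2) := by fun_prop
  let X₀ : Space N := ⟨car N E, gr N (fun p : E × E => p.1 + p.2), code N (0 : E),
    gr N (fun p : K × E => p.1 • p.2), gr N ne⟩
  have hX : RepX K E ne X₀ := ⟨hA, fun a b => ap2_gr ha a b, rfl, fun a b => ap2_gr hm a b,
    fun a => ap_gr hd a⟩
  have he : ∀ x, ZM.E x X₀.car → ∃ a : E, code N a = x := fun x hx => hA.exT hx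
  have hk : ∀ x, ZM.E x K₀.car → ∃ a : K, code N a = x := fun x hx => hK.car.exT hx
  refine ⟨X₀, ?_, hX⟩
  constructor
  · exact isOp2_gr ha hA hA hA
  · exact isOp2_gr hm hK.car hA hA
  · exact isFunction_gr hd hA hR.car
  · exact hA.code_mem 0
  · intro x y z hx hy hz
    obtain ⟨a, rfl⟩ := he x hx
    obtain ⟨b, rfl⟩ := he y hy
    obtain ⟨c, rfl⟩ := he z hz
    simp only [hX.add, add_assoc]
  · intro x y hx hy
    obtain ⟨a, rfl⟩ := he x hx
    obtain ⟨b, rfl⟩ := he y hy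
    rw [hX.add, hX.add, add_comm]
  · intro x hx
    obtain ⟨a, rfl⟩ := he x hx
    rw [hX.zero, hX.add, add_zero]
  · intro x hx
    obtain ⟨a, rfl⟩ := he x hx
    exact ⟨_, hA.code_mem (-a), by rw [hX.zero, hX.add, add_neg_cancel]⟩
  · intro x hx
    obtain ⟨a, rfl⟩ := he x hx
    rw [hK.one, hX.smul, one_smul]
  · intro x y z hx hy hz
    obtain ⟨a, rfl⟩ := hk x hx
    obtain ⟨b, rfl⟩ := hk y hy
    obtain ⟨c, rfl⟩ := he z hz
    simp only [hK.mul, hX.smul, mul_smul]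
  · intro x y z hx hy hz
    obtain ⟨a, rfl⟩ := hk x hx
    obtain ⟨b, rfl⟩ := hk y hy
    obtain ⟨c, rfl⟩ := he z hz
    simp only [hK.add, hX.smul, hX.add, add_smul]
  · intro x y z hx hy hz
    obtain ⟨a, rfl⟩ := hk x hx
    obtain ⟨b, rfl⟩ := he y hy
    obtain ⟨c, rfl⟩ := he z hz
    simp only [hX.smul, hX.add, smul_add]
  · intro x hx h
    obtain ⟨a, rfl⟩ := he x hx
    rw [hX.norm, hR.zero] at h
    rw [hX.zero, n0 a (code_injT h)]
  · intro x y hx hy
    obtain ⟨a, rfl⟩ := hk x hx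
    obtain ⟨b, rfl⟩ := he y hy
    rw [hX.smul, hX.norm, hX.norm, hK.abs, hR.mul, n1]
  · intro x y hx hy
    obtain ⟨a, rfl⟩ := he x hx
    obtain ⟨b, rfl⟩ := he y hy
    rw [hX.add, hX.norm, hX.norm, hX.norm, hR.add, hR.le]
    exact n2 a b
  · intro w s hw hs h1
    obtain rfl := isOmega_iff.1 hw
    obtain ⟨t, ht, hts⟩ := exists_seq_of_fun hA hs
    obtain ⟨x, hx⟩ := hc t ht fun e he => by
      obtain ⟨n, hn, h5⟩ := h1 _ (hR.pos.2 ⟨e, he, rfl⟩)
      refine ⟨NN.mk n hn, fun k l hk hl => ?_⟩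
      have h6 := h5 _ _ k.prop l.prop hk hl
      rwa [hts, hts, hX.close hR] at h6
    refine ⟨_, hA.code_mem x, fun ε hε => ?_⟩
    obtain ⟨e, he, rfl⟩ := hR.pos.1 hε
    obtain ⟨n, hn⟩ := hx e he
    refine ⟨_, n.prop, fun k hk hnk => ?_⟩
    have := hn (NN.mk k hk) hnk
    rwa [← hX.close hR, ← hts] at this

end Vale.Agent.P129BP
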