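import Vale.Agent.P129BP.Rep3
import Vale.Agent.P129BZ.Scal
import Vale.Agent.P129BN.KC

/-!
# From the coded Banach spaces to the statement, and back
-/

namespace Vale.Agent.P129BP

open Vale.Agent.P323.Z Vale.Agent.P129B Vale.Agent.P129Z.S

universe v

variable {N : Type v} [ZM N]

instance RT.rf {R₀ : Reals N} {h : IsReals ZM.E R₀} : RF N (RT h) where
  defAdd := inferInstance
  defMul := inferInstance
  defLT := inferInstance
  lub := RT.lub_intl

variable (N) in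
/-- Every infinite-dimensional coded Banach space has a separable quotient. -/
def AllSQ : Prop :=
  ∀ (R : Type v) [Field R] [LinearOrder R] [IsStrictOrderedRing R] [Coded N R] [RF N R]
    (K : Type v) [Field K] [Algebra R K] [Nm K R] [KA R K] [Coded N K] [KF N R K]
    (E : Type v) [AddCommGroup E] [Module K E] [Nm E R] [NA R K E] [Coded N E] [NS N R K E]
    [Cpl N R E], ¬ FinCod N K ({0} : Set E) → SepQ N K (nm : E → R)

theorem isCx {R : Type*} [Field R] [LinearOrder R] [IsStrictOrderedRing R] [Coded N R] [SqR R] :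
    IsCx N (fun a b : R => (⟨a, b⟩ : CC R)) (nm : CC R → R) where
  surj z := ⟨z.re, z.im, rfl⟩
  code _ _ := rfl
  add _ _ _ _ := rfl
  mul _ _ _ _ := QuadraticAlgebra.ext (CC.re_mul' _ _) (CC.im_mul' _ _)
  one := rfl
  nonneg z := (CC.nm_spec z).1
  sq a b := by simpa only [sq] using (CC.nm_spec (⟨a, b⟩ : CC R)).2

theorem hasSQ_of (H : AllSQ N) {R : Type v} [Field R] [LinearOrder R] [IsStrictOrderedRing R]
    [Coded N R] [RF N R] {K : Type v} [Field K] [Algebra R K] [Nm K R] [KA R K] [Coded N K]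
    [KF N R K] {R₀ : Reals N} {K₀ : Scalars N} {X₀ : Space N} (hR : RepR R R₀)
    (hK : RepK K (nm : K → R) K₀) (h : IsBanach ZM.E R₀ K₀ X₀) (hd : ¬ FiniteDim ZM.E K₀ X₀) :
    HasSQ ZM.E R₀ K₀ X₀ := by
  have hX := XT.rep (hR := hR) (hK := hK) (h := h)
  let _ : Nm (XT hR hK h) R := ⟨XT.nrm⟩
  have : NA R K (XT hR hK h) := ⟨hX.nm_add hR h, hX.nm_smul hR hK h, hX.eq_zero hR h⟩
  have : NS N R K (XT hR hK h) :=
    { defAdd := hX.defAdd, defSMul := hX.defSMul, defNm := ⟨hX.defNorm⟩ }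
  have : Cpl N R (XT hR hK h) := cmp_iff.1 (hX.cmp hR h)
  exact (hX.hasSQ hR hK).2 (H R K (XT hR hK h) fun h1 => hd ((hX.finiteDim hK).2 h1))

theorem sqReal_of (H : AllSQ N) : SQReal (ZM.E (N := N)) := fun _ _ _ hR hK hX hd =>
  hasSQ_of H (repR_RT hR) (repK_real (repR_RT hR) hK) hX hd

theorem sqComplex_of (H : AllSQ N) : SQComplex (ZM.E (N := N)) := fun _ _ _ hR hK hX hd =>
  haveI : SqR (RT hR) := RF.sqR N
  hasSQ_of H (repR_RT hR) (repK_complex isCx (repR_RT hR) hK) hX hd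

section Export

variable {R : Type*} [Field R] [LinearOrder R] [IsStrictOrderedRing R] [Coded N R] [RF N R]

theorem export_space {K : Type*} [Field K] [Nm K R] [Coded N K] [Tot N K] [DefAdd N K]
    [DefMul N K] (E : Type*) [AddCommGroup E] [Module K E] [Nm E R] [NA R K E] [Coded N E]
    [NS N R K E] [hc : Cpl N R E] {R₀ : Reals N} {K₀ : Scalars N} (hR : RepR R R₀)
    (hK : RepK K (nm : K → R) K₀) (hd : ¬ FinCod N K ({0} : Set E)) :
    ∃ X₀ : Space N, IsBanach ZM.E R₀ K₀ X₀ ∧ ¬ FiniteDim ZM.E K₀ X₀ := by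
  obtain ⟨X₀, h1, h2⟩ := exists_space (ne := (nm : E → R)) hR hK DefF.id.nm NA.eq_zero_of_nm
    NA.nm_smul NA.nm_add (cmp_iff.2 hc)
  exact ⟨X₀, h1, fun h => hd ((h2.finiteDim hK).1 h)⟩

/-- An infinite-dimensional coded real Banach space gives one of the model. -/
theorem export_real (E : Type*) [AddCommGroup E] [Module R E] [Nm E R] [NA R R E] [Coded N E]
    [NS N R R E] [Cpl N R E] (hd : ¬ FinCod N R ({0} : Set E)) :
    ∃ (R₀ : Reals N) (K₀ : Scalars N) (X₀ : Space N), IsReals ZM.E R₀ ∧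
      IsRealScalars ZM.E R₀ K₀ ∧ IsBanach ZM.E R₀ K₀ X₀ ∧ ¬ FiniteDim ZM.E K₀ X₀ := by
  obtain ⟨R₀, h1, hR⟩ := exists_reals (N := N) (R := R) RF.lub
  obtain ⟨K₀, h2, hK⟩ := exists_real (DefF.id.nm (N := N) (R := R) (E := R)) hR
  obtain ⟨X₀, h3⟩ := export_space E hR hK hd
  exact ⟨R₀, K₀, X₀, h1, h2, h3⟩

/-- An infinite-dimensional coded complex Banach space gives one of the model. -/
theorem export_complex [SqR R] (E : Type*) [AddCommGroup E] [Module (CC R) E] [Nm E R]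
    [NA R (CC R) E] [Coded N E] [NS N R (CC R) E] [Cpl N R E]
    (hd : ¬ FinCod N (CC R) ({0} : Set E)) :
    ∃ (R₀ : Reals N) (K₀ : Scalars N) (X₀ : Space N), IsReals ZM.E R₀ ∧
      IsComplexScalars ZM.E R₀ K₀ ∧ IsBanach ZM.E R₀ K₀ X₀ ∧ ¬ FiniteDim ZM.E K₀ X₀ := by
  obtain ⟨R₀, h1, hR⟩ := exists_reals (N := N) (R := R) RF.lub
  obtain ⟨K₀, h2, hK⟩ := exists_complex isCx (DefF.id.nm (N := N) (R := R) (E := CC R)) hR
  obtain ⟨X₀, h3⟩ := export_space E hR hK hd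
  exact ⟨R₀, K₀, X₀, h1, h2, h3⟩

end Export

end Vale.Agent.P129BP
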