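import Vale.Agent.P129BP.Rep0
import Vale.Agent.P129B.Ops
import Mathlib.Algebra.Field.MinimalAxioms

/-!
# Complete ordered fields of the model and coded ordered fields
-/

namespace Vale.Agent.P129BP

open Vale.Agent.P323.Z Vale.Agent.P129B Vale.Agent.P129Z.S

universe v

variable {N : Type v} [ZM N]

/-- the elements of a complete ordered field of the model -/
def RT {R : Reals N} (_h : IsReals ZM.E R) : Type v := El R.car

namespace RT

variable {R : Reals N} {h : IsReals ZM.E R}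

noncomputable instance : Coded N (RT h) := inferInstanceAs (Coded N (El R.car))
instance : Tot N (RT h) := inferInstanceAs (Tot N (El R.car))

theorem code_eq (x : RT h) : code N x = x.1 := rfl

noncomputable instance : Add (RT h) := ⟨fun x y => ⟨_, ap2_mem h.add_op x.2 y.2⟩⟩
noncomputable instance : Mul (RT h) := ⟨fun x y => ⟨_, ap2_mem h.mul_op x.2 y.2⟩⟩
instance : Zero (RT h) := ⟨⟨R.zero, h.zero_mem⟩⟩
instance : One (RT h) := ⟨⟨R.one, h.one_mem⟩⟩
noncomputable instance : Neg (RT h) :=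
  ⟨fun x => ⟨(h.add_neg x.1 x.2).choose, (h.add_neg x.1 x.2).choose_spec.1⟩⟩
open Classical in
noncomputable instance : Inv (RT h) :=
  ⟨fun x => if hx : x.1 = R.zero then 0 else
    ⟨(h.mul_inv x.1 x.2 hx).choose, (h.mul_inv x.1 x.2 hx).choose_spec.1⟩⟩

theorem add_val (x y : RT h) : (x + y).1 = ap2 ZM.E R.add x.1 y.1 := rfl
theorem mul_val (x y : RT h) : (x * y).1 = ap2 ZM.E R.mul x.1 y.1 := rfl
theorem zero_val : (0 : RT h).1 = R.zero := rfl
theorem one_val : (1 : RT h).1 = R.one := rfl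

noncomputable instance : Field (RT h) :=
  Field.ofMinimalAxioms (RT h)
    (fun a b c => Subtype.ext (h.add_assoc _ _ _ a.2 b.2 c.2))
    (fun a => Subtype.ext ((h.add_comm _ _ h.zero_mem a.2).trans (h.add_zero _ a.2)))
    (fun a => Subtype.ext ((h.add_comm _ _ (-a).2 a.2).trans (h.add_neg a.1 a.2).choose_spec.2))
    (fun a b c => Subtype.ext (h.mul_assoc _ _ _ a.2 b.2 c.2))
    (fun a b => Subtype.ext (h.mul_comm _ _ a.2 b.2))
    (fun a => Subtype.ext ((h.mul_comm _ _ h.one_mem a.2).trans (h.mul_one _ a.2)))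
    (fun a ha => by
      have hx : ¬ a.1 = R.zero := fun e => ha (Subtype.ext e)
      have : a⁻¹ = ⟨(h.mul_inv a.1 a.2 hx).choose, (h.mul_inv a.1 a.2 hx).choose_spec.1⟩ :=
        dif_neg hx
      rw [this]
      exact Subtype.ext (h.mul_inv a.1 a.2 hx).choose_spec.2)
    (dif_pos rfl)
    (fun a b c => Subtype.ext (h.mul_add _ _ _ a.2 b.2 c.2))
    ⟨0, 1, fun e => h.zero_ne_one (congrArg Subtype.val e)⟩

instance : IsStrictTotalOrder (RT h) (fun x y => R.Lt ZM.E x.1 y.1) where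
  trichotomous a b h1 h2 := by
    rcases h.lt_total _ _ a.2 b.2 with h3 | h3 | h3
    exacts [absurd h3 h1, Subtype.ext h3, absurd h3 h2]
  irrefl a := h.lt_irrefl _ a.2
  trans a b c := h.lt_trans _ _ _ a.2 b.2 c.2

open Classical in
noncomputable instance : LinearOrder (RT h) := linearOrderOfSTO (fun x y => R.Lt ZM.E x.1 y.1)

theorem lt_iff {x y : RT h} : x < y ↔ R.Lt ZM.E x.1 y.1 := Iff.rfl

theorem le_iff {x y : RT h} : x ≤ y ↔ R.Le ZM.E x.1 y.1 := by
  rw [le_iff_lt_or_eq, lt_iff, Reals.Le]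
  exact or_congr Iff.rfl Subtype.ext_iff

instance : IsOrderedAddMonoid (RT h) where
  add_le_add_left a b hab c := by
    rcases hab.lt_or_eq with h1 | rfl
    · exact le_of_lt (h.add_lt_add _ _ _ a.2 b.2 c.2 h1)
    · exact le_rfl

theorem mul_pos' (a b : RT h) (ha : 0 < a) (hb : 0 < b) : 0 < a * b :=
  (h.mul_pos _ _ ⟨a.2, ha⟩ ⟨b.2, hb⟩).2

instance : ZeroLEOneClass (RT h) where
  zero_le_one := by
    by_contra h1
    have h2 : (0 : RT h) < -1 := neg_pos.2 (not_le.1 h1)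
    have h3 := mul_pos' _ _ h2 h2
    rw [neg_mul_neg, one_mul] at h3
    exact h1 h3.le

instance : IsStrictOrderedRing (RT h) := IsStrictOrderedRing.of_mul_pos mul_pos'

theorem lub {A : N} (hA : Sub ZM.E A R.car) (hne : ∃ x, x ∈ A)
    (hb : BddAbove {x : RT h | x.1 ∈ A}) : ∃ s : RT h, IsLUB {x : RT h | x.1 ∈ A} s := by
  obtain ⟨b, hb⟩ := hb
  obtain ⟨s, h1, h2, h3⟩ := h.lub A hA hne
    ⟨b.1, b.2, fun x hx => le_iff.1 (hb (a := ⟨x, hA x hx⟩) hx)⟩
  exact ⟨⟨s, h1⟩, fun x hx => le_iff.2 (h2 _ hx), fun c hc =>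
    le_iff.2 (h3 c.1 c.2 fun x hx => le_iff.1 (hc (a := ⟨x, hA x hx⟩) hx))⟩

instance : DefAdd N (RT h) :=
  ⟨defF_of_code (F := fun p : RT h × RT h => ap2 ZM.E R.add (code N p.1) (code N p.2))
    (fun _ _ => inferInstance) (by fun_prop) fun _ _ => rfl⟩
instance : DefMul N (RT h) :=
  ⟨defF_of_code (F := fun p : RT h × RT h => ap2 ZM.E R.mul (code N p.1) (code N p.2))
    (fun _ _ => inferInstance) (by fun_prop) fun _ _ => rfl⟩
instance : DefLT N (RT h) :=
  ⟨DefF.congrP (P := fun p : RT h × RT h => op (code N p.1) (code N p.2) ∈ R.lt) (by fun_prop)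
    fun _ _ => pairMem_iff.symm⟩

theorem lub_intl (s : Set (RT h)) (hs : Intl N s) (hne : s.Nonempty) (hb : BddAbove s) :
    ∃ x, IsLUB s x := by
  have h3 : {x : RT h | x.1 ∈ code N s} = s :=
    Set.ext fun x => code_mem_code hs (a := x) inferInstance
  have h4 := lub (h := h) (A := code N s) ((isCar_el R.car).sub_code hs)
    (by
      obtain ⟨a, ha⟩ := hne
      exact ⟨_, (code_mem_code hs inferInstance).2 ha⟩) (by rwa [h3])
  rwa [h3] at h4

end RT

/-- `R₀` represents the ordered field `R`. -/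
structure RepR (R : Type*) [Coded N R] [Field R] [LinearOrder R] (R₀ : Reals N) : Prop where
  car : IsCar N R R₀.car
  add : ∀ a b : R, ap2 ZM.E R₀.add (code N a) (code N b) = code N (a + b)
  mul : ∀ a b : R, ap2 ZM.E R₀.mul (code N a) (code N b) = code N (a * b)
  zero : R₀.zero = code N (0 : R)
  one : R₀.one = code N (1 : R)
  lt : ∀ a b : R, R₀.Lt ZM.E (code N a) (code N b) ↔ a < b

theorem repR_RT {R : Reals N} (h : IsReals ZM.E R) : RepR (RT h) R :=
  ⟨isCar_el R.car, fun _ _ => rfl, fun _ _ => rfl, rfl, rfl, fun _ _ => Iff.rfl⟩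

theorem code_injT {α : Type*} [Coded N α] [Tot N α] {a b : α} (h : code N a = code N b) : a = b :=
  code_inj inferInstance inferInstance h

theorem IsCar.exT {α : Type*} [Coded N α] {A x : N} (h : IsCar N α A) (hx : ZM.E x A) :
    ∃ a : α, code N a = x := (h.exists hx).imp fun _ h => h.2

variable {R : Type*} [Coded N R] [Field R] [LinearOrder R] [Tot N R] {R₀ : Reals N}

theorem RepR.le (hR : RepR R R₀) (a b : R) : R₀.Le ZM.E (code N a) (code N b) ↔ a ≤ b := by
  rw [Reals.Le, hR.lt a b, le_iff_lt_or_eq]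
  exact or_congr Iff.rfl ⟨code_injT, fun h => h ▸ rfl⟩

theorem RepR.pos (hR : RepR R R₀) {ε : N} : R₀.Pos ZM.E ε ↔ ∃ e : R, 0 < e ∧ code N e = ε := by
  constructor
  · rintro ⟨h1, h2⟩
    obtain ⟨e, rfl⟩ := hR.car.exT h1
    rw [hR.zero, hR.lt] at h2
    exact ⟨e, h2, rfl⟩
  · rintro ⟨e, h, rfl⟩
    refine ⟨hR.car.code_mem e, ?_⟩
    rw [hR.zero, hR.lt]
    exact h

/-- A coded complete ordered field is represented by a complete ordered field of the model. -/
theorem exists_reals [IsStrictOrderedRing R] [DefAdd N R] [DefMul N R] [DefLT N R]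
    (lub : ∀ s : Set R, Intl N s → s.Nonempty → BddAbove s → ∃ x, IsLUB s x) :
    ∃ R₀ : Reals N, IsReals ZM.E R₀ ∧ RepR R R₀ := by
  have hA : IsCar N R (car N R) := isCar_car
  have ha : DefF N (fun p : R × R => p.1 + p.2) := by fun_prop
  have hm : DefF N (fun p : R × R => p.1 * p.2) := by fun_prop
  have hl : Intl N {p : R × R | p.1 < p.2} := intl_setOfT (by fun_prop)
  let R₀ : Reals N := ⟨car N R, gr N (fun p : R × R => p.1 + p.2),
    gr N (fun p : R × R => p.1 * p.2), code N (0 : R), code N (1 : R),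
    code N {p : R × R | p.1 < p.2}⟩
  have hR : RepR R R₀ := ⟨hA, fun a b => ap2_gr ha a b, fun a b => ap2_gr hm a b, rfl, rfl,
    fun a b => pairMem_iff.trans (code_mem_code hl (a := (a, b)) inferInstance)⟩
  have he : ∀ x, ZM.E x R₀.car → ∃ a : R, code N a = x := fun x hx => hA.exT hx
  refine ⟨R₀, ?_, hR⟩
  constructor
  · exact isOp2_gr ha hA hA hA
  · exact isOp2_gr hm hA hA hA
  · exact hA.code_mem 0
  · exact hA.code_mem 1
  · intro x y z hx hy hz
    obtain ⟨a, rfl⟩ := he x hx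
    obtain ⟨b, rfl⟩ := he y hy
    obtain ⟨c, rfl⟩ := he z hz
    simp only [hR.add, add_assoc]
  · intro x y hx hy
    obtain ⟨a, rfl⟩ := he x hx
    obtain ⟨b, rfl⟩ := he y hy
    rw [hR.add, hR.add, add_comm]
  · intro x hx
    obtain ⟨a, rfl⟩ := he x hx
    rw [hR.zero, hR.add, add_zero]
  · intro x hx
    obtain ⟨a, rfl⟩ := he x hx
    exact ⟨_, hA.code_mem (-a), by rw [hR.zero, hR.add, add_neg_cancel]⟩
  · intro x y z hx hy hz
    obtain ⟨a, rfl⟩ := he x hx
    obtain ⟨b, rfl⟩ := he y hy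
    obtain ⟨c, rfl⟩ := he z hz
    simp only [hR.mul, mul_assoc]
  · intro x y hx hy
    obtain ⟨a, rfl⟩ := he x hx
    obtain ⟨b, rfl⟩ := he y hy
    rw [hR.mul, hR.mul, mul_comm]
  · intro x hx
    obtain ⟨a, rfl⟩ := he x hx
    rw [hR.one, hR.mul, mul_one]
  · intro x hx h0
    obtain ⟨a, rfl⟩ := he x hx
    have h1 : a ≠ 0 := fun h => h0 (by rw [h, hR.zero])
    exact ⟨_, hA.code_mem a⁻¹, by rw [hR.one, hR.mul, mul_inv_cancel₀ h1]⟩
  · intro x y z hx hy hz
    obtain ⟨a, rfl⟩ := he x hx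
    obtain ⟨b, rfl⟩ := he y hy
    obtain ⟨c, rfl⟩ := he z hz
    simp only [hR.add, hR.mul, mul_add]
  · rw [hR.zero, hR.one]
    exact fun h => zero_ne_one (code_injT h)
  · intro x hx
    obtain ⟨a, rfl⟩ := he x hx
    rw [hR.lt]
    exact lt_irrefl a
  · intro x y z hx hy hz
    obtain ⟨a, rfl⟩ := he x hx
    obtain ⟨b, rfl⟩ := he y hy
    obtain ⟨c, rfl⟩ := he z hz
    rw [hR.lt, hR.lt, hR.lt]
    exact lt_trans
  · intro x y hx hy
    obtain ⟨a, rfl⟩ := he x hx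
    obtain ⟨b, rfl⟩ := he y hy
    rw [hR.lt, hR.lt]
    rcases lt_trichotomy a b with h | h | h
    exacts [Or.inl h, Or.inr (Or.inl (h ▸ rfl)), Or.inr (Or.inr h)]
  · intro x y z hx hy hz
    obtain ⟨a, rfl⟩ := he x hx
    obtain ⟨b, rfl⟩ := he y hy
    obtain ⟨c, rfl⟩ := he z hz
    rw [hR.lt, hR.add, hR.add, hR.lt]
    exact fun h => by linarith
  · intro x y hx hy
    obtain ⟨a, ha', rfl⟩ := hR.pos.1 hx
    obtain ⟨b, hb', rfl⟩ := hR.pos.1 hy
    exact hR.pos.2 ⟨a * b, mul_pos ha' hb', (hR.mul _ _).symm⟩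
  · rintro B hB ⟨x, hx⟩ ⟨b, hb, hb'⟩
    obtain ⟨s, hs, rfl⟩ := hA.exists_set hB
    have hub : ∀ c : R, (∀ y, ZM.E y (code N s) → R₀.Le ZM.E y (code N c)) ↔
        c ∈ upperBounds s := by
      intro c
      constructor
      · intro h y hy
        exact (hR.le _ _).1 (h _ ((mem_code_set hs).2 ⟨y, hy, rfl⟩))
      · intro h y hy
        obtain ⟨a, ha, rfl⟩ := (mem_code_set hs).1 hy
        exact (hR.le _ _).2 (h ha)
    obtain ⟨a, ha, -⟩ := (mem_code_set hs).1 hx
    obtain ⟨b, rfl⟩ := he b hb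
    obtain ⟨u, hu⟩ := lub s hs ⟨a, ha⟩ ⟨b, (hub b).1 hb'⟩
    refine ⟨_, hA.code_mem u, (hub _).2 hu.1, fun c hc hc' => ?_⟩
    obtain ⟨c, rfl⟩ := he c hc
    exact (hR.le _ _).2 (hu.2 ((hub c).1 hc'))

end Vale.Agent.P129BP
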