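import Vale.Agent.P129BP.Rep2
import Vale.Agent.P129B.Sum
import Vale.Agent.P129BZ.Cls

/-!
# Separable quotients in the model and in the coded structure
-/

namespace Vale.Agent.P129BP

open Vale.Agent.P323.Z Vale.Agent.P129B Vale.Agent.P129Z.S

universe v

variable {N : Type v} [ZM N] {R : Type*} [Coded N R] {K : Type*} [Coded N K] [Field K] [Tot N K]
  {nk : K → R} {K₀ : Scalars N} {X₀ : Space N}
  {E : Type*} [Coded N E] [AddCommGroup E] [Module K E] [Tot N E] {ne : E → R}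

theorem RepX.subspace (hX : RepX K E ne X₀) (hK : RepK K nk K₀) {M : Set E} (hM : Intl N M) :
    IsSubspace ZM.E K₀ X₀ (code N M) ↔ IsISub N K M := by
  have hm : ∀ x : E, ZM.E (code N x) (code N M) ↔ x ∈ M :=
    fun x => code_mem_code hM inferInstance
  constructor
  · rintro ⟨-, h1, h2, h3⟩
    refine ⟨hM, ?_, fun x hx y hy => ?_, fun c x hx => ?_⟩
    · rwa [hX.zero, hm] at h1
    · have := h2 _ _ ((hm x).2 hx) ((hm y).2 hy)
      rwa [hX.add, hm] at this
    · have := h3 _ _ (hK.car.code_mem c) ((hm x).2 hx)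
      rwa [hX.smul, hm] at this
  · intro h
    refine ⟨hX.car.sub_code hM, ?_, fun x y hx hy => ?_, fun c x hc hx => ?_⟩
    · rw [hX.zero, hm]
      exact h.zero
    · obtain ⟨a, ha, rfl⟩ := (mem_code_set hM).1 hx
      obtain ⟨b, hb, rfl⟩ := (mem_code_set hM).1 hy
      rw [hX.add, hm]
      exact h.add a ha b hb
    · obtain ⟨a, rfl⟩ := hK.car.exT hc
      obtain ⟨b, hb, rfl⟩ := (mem_code_set hM).1 hx
      rw [hX.smul, hm]
      exact h.smul a b hb

/-- finite codimension, with sums -/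
def FinCod (N : Type v) [ZM N] (K : Type*) [Coded N K] [Field K] {E : Type*} [Coded N E]
    [AddCommGroup E] [Module K E] (Y : Set E) : Prop :=
  ∃ (n : NN N) (w : NN N → E), Intl N w ∧
    ∀ x, ∃ c : NN N → K, Intl N c ∧ x - isum (fun i => c i • w i) n ∈ Y

theorem RepX.finiteCodim [DefAdd N K] [DefMul N K] (hX : RepX K E ne X₀) (hK : RepK K nk K₀)
    {M : Set E} (hM : IsISub N K M) : FiniteCodim ZM.E K₀ X₀ (code N M) ↔ FinCod N K M := by
  classical
  have hMI := hM.intl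
  have := hX.defAdd
  have := hX.defSMul
  have : DefNeg N E := defNeg_of_add
  have : DefSub N E := defSub_of_neg
  constructor
  · rintro ⟨F, hF, hFX, h⟩
    obtain ⟨s, hs, rfl⟩ := hX.car.exists_set hFX
    obtain ⟨n, w, hw, rfl⟩ := (isFinite_code hs (0 : E)).1 hF
    let Z : Set E := {x | ∃ c : NN N → K, Intl N c ∧ x - isum (fun i => c i • w i) n ∈ M}
    have hZ : Intl N Z := intl_setOfT (by fun_prop)
    have h0 : ∀ x ∈ M, x ∈ Z := fun x hx => ⟨fun _ => 0, inferInstance, by simpa using hx⟩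
    have hZ' : IsISub N K Z := by
      refine ⟨hZ, h0 0 hM.zero, ?_, ?_⟩
      · rintro x ⟨c, hc, h1⟩ y ⟨d, hd, h2⟩
        refine ⟨fun i => c i + d i, DefF.toIntl (by fun_prop), ?_⟩
        have := hM.add _ h1 _ h2
        simp only [add_smul]
        rwa [isum_add (by fun_prop) (by fun_prop), ← sub_add_sub_comm]
      · rintro a x ⟨c, hc, h1⟩
        refine ⟨fun i => a * c i, DefF.toIntl (by fun_prop), ?_⟩
        have := hM.smul a _ h1
        simp only [mul_smul]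
        rwa [← smul_isum a (by fun_prop), ← smul_sub]
    have h1 := h _ ((hX.subspace hK hZ).2 hZ') ((sub_code_iff hMI hZ).2 h0)
      ((sub_code_iff hs hZ).2 (by
        rintro _ ⟨i, hi, rfl⟩
        refine ⟨fun j => if j = i then 1 else 0, DefF.toIntl (by fun_prop), ?_⟩
        rw [isum_single (j := i) (by fun_prop) hi fun j _ hj => by simp [hj]]
        simpa using hM.zero))
    exact ⟨n, w, hw, fun x => (code_mem_code hZ inferInstance).1 (h1 _ (hX.car.code_mem x))⟩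
  · rintro ⟨n, w, hw, h⟩
    have h0 : Intl N (Set.Iio n) := intl_setOfT (P := fun i : NN N => i < n) (by fun_prop)
    have hs : Intl N (w '' Set.Iio n) := intl_image (DefF.ofIntl w) _
    refine ⟨_, (isFinite_code hs (0 : E)).2 ⟨n, w, hw, rfl⟩, hX.car.sub_code hs,
      fun Z hZ h1 h2 y hy => ?_⟩
    obtain ⟨Z', hZ', rfl⟩ := hX.car.exists_set hZ.1
    obtain ⟨x, rfl⟩ := hX.car.exT hy
    have h3 := (hX.subspace hK hZ').1 hZ
    obtain ⟨c, hc, h4⟩ := h x
    have h5 := h3.add _ ((sub_code_iff hMI hZ').1 h1 h4) (isum (fun i => c i • w i) n)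
      (isum_induction (P := fun z => z ∈ Z') (by fun_prop) h3.zero
        (fun a b ha hb => h3.add a ha b hb) (by fun_prop) fun i hi =>
          h3.smul _ _ ((sub_code_iff hs hZ').1 h2 ⟨i, hi, rfl⟩))
    rw [sub_add_cancel] at h5
    exact (code_mem_code hZ' inferInstance).2 h5

theorem RepX.finiteDim [DefAdd N K] [DefMul N K] (hX : RepX K E ne X₀) (hK : RepK K nk K₀) :
    FiniteDim ZM.E K₀ X₀ ↔ FinCod N K ({0} : Set E) := by
  have h0 : Intl N ({0} : Set E) := inferInstance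
  have h1 : IsISub N K ({0} : Set E) :=
    ⟨h0, rfl, by rintro _ rfl _ rfl; simp, by rintro c _ rfl; simp⟩
  rw [← hX.finiteCodim hK h1]
  refine exists_congr fun F => and_congr Iff.rfl (and_congr Iff.rfl (forall_congr' fun Z =>
    forall_congr' fun hZ => ⟨fun h _ => h, fun h => h fun y hy => ?_⟩))
  obtain ⟨_, rfl, rfl⟩ := (mem_code_set h0).1 hy
  exact hX.zero ▸ hZ.2.1

variable [Field R] [LinearOrder R] [Tot N R] {R₀ : Reals N}

omit [Tot N K] in
theorem RepX.closedIn (hX : RepX K E ne X₀) (hR : RepR R R₀) {M : Set E} (hM : Intl N M) :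
    IsClosedIn ZM.E R₀ X₀ (code N M) ↔
      ∀ x : E, (∀ ε, 0 < ε → ∃ y ∈ M, ne (x - y) < ε) → x ∈ M := by
  constructor
  · intro h x hc
    refine (code_mem_code hM inferInstance).1 (h _ (hX.car.code_mem x) fun ε hε => ?_)
    obtain ⟨e, he, rfl⟩ := hR.pos.1 hε
    obtain ⟨y, hy, h1⟩ := hc e he
    exact ⟨_, (mem_code_set hM).2 ⟨y, hy, rfl⟩, (hX.close hR _ _ _).2 h1⟩
  · intro h y hy hc
    obtain ⟨x, rfl⟩ := hX.car.exT hy
    refine (code_mem_code hM inferInstance).2 (h x fun e he => ?_)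
    obtain ⟨z, hz, h2⟩ := hc _ (hR.pos.2 ⟨e, he, rfl⟩)
    obtain ⟨m, hm, rfl⟩ := (mem_code_set hM).1 hz
    exact ⟨m, hm, (hX.close hR _ _ _).1 h2⟩

omit [Tot N K] in
theorem RepX.separable (hX : RepX K E ne X₀) (hR : RepR R R₀) {M : Set E} (hM : Intl N M) :
    SeparableQuot ZM.E R₀ X₀ (code N M) ↔ ∃ d : NN N → E, Intl N d ∧
      ∀ x ε, 0 < ε → ∃ n, ∃ y ∈ M, ne (x - d n - y) < ε := by
  constructor
  · rintro ⟨w, s, hw, hs, h⟩
    obtain rfl := isOmega_iff.1 hw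
    obtain ⟨d, hd, hds⟩ := exists_seq_of_fun hX.car hs
    refine ⟨d, hd, fun x e he => ?_⟩
    obtain ⟨n, y, hn, hy, h2⟩ := h _ _ (hX.car.code_mem x) (hR.pos.2 ⟨e, he, rfl⟩)
    obtain ⟨m, hm, rfl⟩ := (mem_code_set hM).1 hy
    have h3 := hds (NN.mk n hn)
    rw [NN.val_mk] at h3
    rw [h3, hX.add, hX.close hR] at h2
    exact ⟨_, m, hm, by rwa [sub_sub]⟩
  · rintro ⟨d, hd, h⟩
    have h1 := DefF.ofIntl (N := N) d
    have h2 : ∀ n : NN N, ap ZM.E (gr N d) n.val = code N (d n) := fun n => ap_gr h1 n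
    refine ⟨_, gr N d, isOmega_iff.2 rfl, isFunction_gr h1 isCar_omega hX.car,
      fun y ε hy hε => ?_⟩
    obtain ⟨x, rfl⟩ := hX.car.exT hy
    obtain ⟨e, he, rfl⟩ := hR.pos.1 hε
    obtain ⟨n, m, hm, h3⟩ := h x e he
    refine ⟨_, _, n.prop, (mem_code_set hM).2 ⟨m, hm, rfl⟩, ?_⟩
    rwa [h2, hX.add, hX.close hR, ← sub_sub]

/-- a separable infinite-dimensional quotient -/
def SepQ (N : Type v) [ZM N] (K : Type*) [Coded N K] [Field K] {R : Type*} [Zero R] [LT R]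
    {E : Type*} [Coded N E] [AddCommGroup E] [Module K E] (ne : E → R) : Prop :=
  ∃ Y : Set E, IsISub N K Y ∧ (∀ x, (∀ ε, 0 < ε → ∃ y ∈ Y, ne (x - y) < ε) → x ∈ Y) ∧
    ¬ FinCod N K Y ∧ ∃ d : NN N → E, Intl N d ∧
      ∀ x ε, 0 < ε → ∃ n, ∃ y ∈ Y, ne (x - d n - y) < ε

theorem RepX.hasSQ [DefAdd N K] [DefMul N K] (hX : RepX K E ne X₀) (hR : RepR R R₀)
    (hK : RepK K nk K₀) : HasSQ ZM.E R₀ K₀ X₀ ↔ SepQ N K ne := by
  constructor
  · rintro ⟨Y, h1, h2, h3, h4⟩
    obtain ⟨M, hM, rfl⟩ := hX.car.exists_set h1.1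
    have h5 := (hX.subspace hK hM).1 h1
    exact ⟨M, h5, (hX.closedIn hR hM).1 h2, fun h => h4 ((hX.finiteCodim hK h5).2 h),
      (hX.separable hR hM).1 h3⟩
  · rintro ⟨M, h1, h2, h3, h4⟩
    exact ⟨_, (hX.subspace hK h1.intl).2 h1, (hX.closedIn hR h1.intl).2 h2,
      (hX.separable hR h1.intl).2 h4, fun h => h3 ((hX.finiteCodim hK h1).1 h)⟩

omit [Tot N E] in
/-- The two forms of completeness agree. -/
theorem cmp_iff {R : Type*} [Zero R] [LT R] [Nm E R] : Cmp N (nm : E → R) ↔ Cpl N R E := by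
  constructor
  · intro h
    refine ⟨fun s hs hc => ?_⟩
    obtain ⟨x, hx⟩ := h s hs fun e he => (hc e he).imp fun n hn k l hk hl => hn k l hk.le hl.le
    refine ⟨x, fun e he => ?_⟩
    obtain ⟨n, hn⟩ := hx e he
    exact ⟨n + 1, fun k hk => hn k (NN.add_one_le_iff.1 hk)⟩
  · intro h s hs hc
    obtain ⟨x, hx⟩ := h.lim s hs fun e he => by
      obtain ⟨n, hn⟩ := hc e he
      exact ⟨n + 1, fun k l hk hl => hn k l (NN.add_one_le_iff.1 hk) (NN.add_one_le_iff.1 hl)⟩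
    exact ⟨x, fun e he => (hx e he).imp fun n hn k hk => hn k hk.le⟩

end Vale.Agent.P129BP
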